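import Vale.Agent.P129.Random

/-!
P129: a dense-span set whose functional supports are smaller than the covering number of the
Lebesgue null ideal gives a separable infinite-dimensional quotient.
-/

universe u

/-- An infinite-dimensional real or complex Banach space with a dense-span set `D` in which every
functional is nonzero on at most `κ < covNull` points has a separable infinite-dimensional
quotient. In particular this holds whenever `D` has fewer than `covNull` points. -/
theorem Vale.Agent.Results.P129.CovNullDensity.result :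
    Cardinal.aleph0 < Vale.Agent.P129.covNull ∧
    (∀ (X : Type u) [NormedAddCommGroup X] [NormedSpace ℝ X] [CompleteSpace X],
      ¬ FiniteDimensional ℝ X → ∀ D : Set X, Dense (Submodule.span ℝ D : Set X) →
      (Cardinal.mk D < Cardinal.lift.{u} Vale.Agent.P129.covNull ∨
        ∃ κ : Cardinal.{u}, κ < Cardinal.lift.{u} Vale.Agent.P129.covNull ∧
          ∀ f : StrongDual ℝ X, Cardinal.mk {d : X | d ∈ D ∧ f d ≠ 0} ≤ κ) →
      ∃ M : Submodule ℝ X, IsClosed (M : Set X) ∧ TopologicalSpace.SeparableSpace (X ⧸ M) ∧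
        ¬ FiniteDimensional ℝ (X ⧸ M)) ∧
    (∀ (X : Type u) [NormedAddCommGroup X] [NormedSpace ℂ X] [CompleteSpace X],
      ¬ FiniteDimensional ℂ X → ∀ D : Set X, Dense (Submodule.span ℂ D : Set X) →
      (Cardinal.mk D < Cardinal.lift.{u} Vale.Agent.P129.covNull ∨
        ∃ κ : Cardinal.{u}, κ < Cardinal.lift.{u} Vale.Agent.P129.covNull ∧
          ∀ f : StrongDual ℂ X, Cardinal.mk {d : X | d ∈ D ∧ f d ≠ 0} ≤ κ) →
      ∃ M : Submodule ℂ X, IsClosed (M : Set X) ∧ TopologicalSpace.SeparableSpace (X ⧸ M) ∧
        ¬ FiniteDimensional ℂ (X ⧸ M)) := by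
  refine ⟨Vale.Agent.P129.aleph0_lt_covNull, fun X _ _ _ hX D hD h => ?_,
    fun X _ _ _ hX D hD h => ?_⟩
  all_goals
    rcases h with hc | ⟨κ, hκ, hs⟩
    · exact Vale.Agent.P129.exists_separable_quotient hX D hD _ hc
        (fun f => Cardinal.mk_le_mk_of_subset fun d hd => hd.1)
    · exact Vale.Agent.P129.exists_separable_quotient hX D hD κ hκ hs
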